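import Vale.Agent.P128.TC.Main
import Vale.Agent.P128.RAD.Main
import Vale.Agent.P128.T.Main

/-! P128 block B9: the crack tip. Interface; see notes/P128.md. -/

namespace Vale.Agent.P128

open MeasureTheory Set Metric Filter Topology
open scoped ENNReal

theorem TIPCORE {Ω : Set ℂ} {ε c : ℝ} {wk : Prop} {u : ℂ → ℝ} {K : Set ℂ}
    (h : AM Ω ε wk c u K) {x : ℂ} {ρ A α : ℝ} {z z' : Fin 1 → ℝ → ℂ}
    (hS : Star 1 K x ρ A α z z') (hB : closedBall x ρ ⊆ Ω) :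
    Tang 1 x ρ z ∧ Tendsto (fun r => D u K x r / r) (𝓝[>] 0) (𝓝 1) := by
  have hK : K ∩ closedBall x ρ = insert x (z 0 '' Ioc 0 ρ) := by
    rw [hS.eq, ← singleton_union]
    congr 1
    ext w
    simp only [mem_iUnion]
    exact ⟨fun ⟨j, hj⟩ => Subsingleton.elim j 0 ▸ hj, fun hw => ⟨0, hw⟩⟩
  obtain ⟨e, β, C, he, hβ, -, h1, h2⟩ :=
    (T.tip_of_radial h.toAM0 hS.pos hB hK hS.apos (hS.rad 0)).core
  refine ⟨⟨fun _ => e, β, C, hβ, fun _ => he, fun i j hij => absurd (Subsingleton.elim i j) hij,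
    fun j => ?_⟩, h2⟩
  rw [Subsingleton.elim j 0]
  exact h1

end Vale.Agent.P128
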